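import Vale.Agent.P283R.Be2.Sk0
import Vale.Agent.P283R.Tp.Hrt
import Vale.Agent.P283R.Gf.Up
import Vale.Agent.P283R.Tp.Ram

/-!
# P283R: the theorem of Skoda with arbitrary denominators
-/

open Set
open Vale.Agent.P297Z

noncomputable section

namespace Vale.Agent.P283R.Ws

open Vale.Agent.P287D Vale.Agent.P283M Vale.Agent.P283R.Sk1

/-- **GSKp**: near a prime -/
def GSKp : Prop := ∀ (n k : ℕ) (K : Type) [Field K] [Algebra ℂ K] (S : Subalgebra ℂ K)
  (p : Ideal S) (y : Fin n → K) (m : ℕ) (h : K) (a b : Fin k → S), Aff n S →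
    IsIntegrallyClosed S → p.IsPrime → Frm y → 0 < m → h ≠ 0 → (∀ j, b j ≠ 0) →
    (∀ R, PDat S p R → ld y m h R ≤ 1) → (∀ R, Thp S {p} R → 0 < ld y m h R) → ∀ x : K,
      IsIntegral (Algebra.adjoin ℂ ((S : Set K) ∪ range fun j => (a j : K) / b j)) x →
      ∃ g : S, g ∉ p ∧
        g * (∏ j, (b j : K)) * x ∈ Algebra.adjoin ℂ ((S : Set K) ∪ range fun j => (a j : K) / b j)

/-- **GSK** -/
def GSK : Prop := ∀ (n k : ℕ) (K : Type) [Field K] [Algebra ℂ K] (S : Subalgebra ℂ K)
  (y : Fin n → K) (m : ℕ) (h : K) (a b : Fin k → S), Aff n S →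
    IsIntegrallyClosed S → Frm y → 0 < m → h ≠ 0 → (∀ j, b j ≠ 0) →
    (∀ R, PD S R → ld y m h R ≤ 1) → (∀ R : Pl K, (∀ s ∈ S, s ∈ R.ring) → 0 < ld y m h R) →
    ∀ x : K, IsIntegral (Algebra.adjoin ℂ ((S : Set K) ∪ range fun j => (a j : K) / b j)) x →
      (∏ j, (b j : K)) * x ∈ Algebra.adjoin ℂ ((S : Set K) ∪ range fun j => (a j : K) / b j)

variable {K : Type} [Field K] [Algebra ℂ K]

/-- the poles of an integral function -/
theorem pole_int {v : Finset K} {x : K} (hx : IsIntegral (Algebra.adjoin ℂ (v : Set K)) x)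
    (x0 : x ≠ 0) : ∃ k : ℝ, 0 ≤ k ∧ ∀ R : Pl K, -(R.ord x : ℝ) ≤ k * inf v R := by
  classical
  obtain ⟨p, pm, hp⟩ := hx
  have : ∀ i, ∃ k : ℝ, 0 ≤ k ∧ ((p.coeff i : K) ≠ 0 →
      ∀ R : Pl K, -(R.ord (p.coeff i : K) : ℝ) ≤ k * inf v R) := fun i => by
    by_cases e : (p.coeff i : K) = 0
    · exact ⟨0, le_rfl, fun h => (h e).elim⟩
    · obtain ⟨k, k0, h⟩ := pole (p.coeff i).2 e
      exact ⟨k, k0.le, fun _ => h⟩
  choose k k0 hk using this
  refine ⟨∑ i ∈ Finset.range p.natDegree, k i, Finset.sum_nonneg fun i _ => k0 i, fun R => ?_⟩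
  by_contra c
  push Not at c
  have i0 : 0 ≤ inf v R := Kl.inf_nn v R
  have neg : (R.ord x : ℝ) < 0 := by
    have := mul_nonneg (Finset.sum_nonneg fun i (_ : i ∈ Finset.range p.natDegree) => k0 i) i0
    linarith
  rw [pm.as_sum, Polynomial.eval₂_add, Polynomial.eval₂_X_pow, Polynomial.eval₂_finsetSum,
    add_eq_zero_iff_eq_neg] at hp
  have : x ^ p.natDegree ∈ R.sub (-(p.natDegree * R.ord x) - 1) := by
    rw [hp]
    refine neg_mem (sum_mem fun i hi => ?_)
    rw [Polynomial.eval₂_mul, Polynomial.eval₂_C, Polynomial.eval₂_X_pow]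
    change (p.coeff i : K) * x ^ i ∈ _
    by_cases e : (p.coeff i : K) = 0
    · rw [e, zero_mul]
      exact zero_mem _
    refine .inr ?_
    have h1 := (hk i e R).trans (mul_le_mul_of_nonneg_right
      (Finset.single_le_sum (fun i _ => k0 i) hi) i0)
    have h2 : R.ord x + 1 ≤ R.ord (p.coeff i : K) := by
      have : (R.ord x : ℝ) < R.ord (p.coeff i : K) := by linarith
      exact_mod_cast this
    have h3 : ((i : ℝ) + 1) ≤ p.natDegree := by exact_mod_cast Finset.mem_range.1 hi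
    have h4 : (R.ord x : ℝ) + 1 ≤ R.ord (p.coeff i : K) := by exact_mod_cast h2
    rw [Pl.ord_mul _ e (pow_ne_zero _ x0), Pl.ord_pow]
    push_cast
    nlinarith
  have := this.resolve_left (pow_ne_zero _ x0)
  rw [Pl.ord_pow] at this
  push_cast at this
  linarith

/-- the local ring -/
def lo (S : Subalgebra ℂ K) (p : Ideal S) (hp : p.IsPrime) : Subalgebra ℂ K where
  carrier := Lo S p
  mul_mem' := Gf.lo_mul hp
  add_mem' := Gf.lo_add hp
  algebraMap_mem' c := Gf.lo_of hp (algebraMap ℂ S c)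

theorem den {S : Subalgebra ℂ K} {p : Ideal S} (hp : p.IsPrime) (T : Set K) {f : K}
    (hf : f ∈ Algebra.adjoin ℂ (Lo S p ∪ T)) :
    ∃ g : S, g ∉ p ∧ g * f ∈ Algebra.adjoin ℂ ((S : Set K) ∪ T) := by
  have one : (1 : S) ∉ p := (Ideal.ne_top_iff_one p).1 hp.ne_top
  have m : ∀ g : S, (g : K) ∈ Algebra.adjoin ℂ ((S : Set K) ∪ T) := fun g =>
    Algebra.subset_adjoin (.inl g.2)
  induction hf using Algebra.adjoin_induction with
  | mem x hx =>
    rcases hx with ⟨s, t, ht, rfl⟩ | hx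
    · exact ⟨t, ht, by rw [mul_div_cancel₀ _ (Gf.ne_of ht)]; exact m s⟩
    · exact ⟨1, one, mul_mem (m 1) (Algebra.subset_adjoin (.inr hx))⟩
  | algebraMap c => exact ⟨1, one, mul_mem (m 1) (algebraMap_mem _ c)⟩
  | add x y _ _ a b =>
    obtain ⟨g, g0, a⟩ := a
    obtain ⟨g', g1, b⟩ := b
    refine ⟨g * g', fun e => (hp.mem_or_mem e).elim g0 g1, ?_⟩
    have : ((g * g' : S) : K) * (x + y) = g' * (g * x) + g * (g' * y) := by push_cast; ring
    rw [this]
    exact add_mem (mul_mem (m _) a) (mul_mem (m _) b)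
  | mul x y _ _ a b =>
    obtain ⟨g, g0, a⟩ := a
    obtain ⟨g', g1, b⟩ := b
    refine ⟨g * g', fun e => (hp.mem_or_mem e).elim g0 g1, ?_⟩
    have : ((g * g' : S) : K) * (x * y) = (g * x) * (g' * y) := by push_cast; ring
    rw [this]
    exact mul_mem a b

theorem gskp_of (blow : BLOW) (twi : TWI) : GSKp := by
  classical
  intro n k K _ _ S p y m h a b hS nor hp hy hm h0 b0 bd klt x hx
  obtain ⟨v, hv⟩ := hS.fg
  have ind : AlgebraicIndependent ℂ y := hy.ind
  have b1 : ∀ j, (b j : K) ≠ 0 := fun j e => b0 j (Subtype.ext e)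
  set T := range fun j => (a j : K) / b j
  let B := Algebra.adjoin ℂ (Lo S p ∪ T)
  have base : Top y m h v B := fun c f _ hf => by
    refine Algebra.subset_adjoin (.inl ((hrt n K S hS nor).2.2.1 p hp f fun R hR => ?_))
    by_cases f0 : f = 0
    · rw [f0]
      exact zero_mem _
    have h1 := hf.resolve_left f0 R
    obtain ⟨q, -, cen, -⟩ := id hR
    rw [Kl.inf_zero.2 fun s hs => (cen ⟨s, hv ▸ Algebra.subset_adjoin hs⟩).1] at h1
    have h2 : (-1 : ℝ) < R.ord f := by linarith [bd R hR]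
    have h3 : -1 < R.ord f := by exact_mod_cast h2
    exact (Pl.ord_nonneg_iff _ f0).1 (by omega)
  have key : ∀ J : Finset (Fin k),
      Top y m (h * (∏ j ∈ J, (b j : K)) ^ m) (v ∪ J.image fun j => (a j : K) / b j) B := fun J => by
    induction J using Finset.induction_on with
    | empty => simpa using base
    | insert j J hj ih =>
      have le : S ≤ Algebra.adjoin ℂ ((v ∪ J.image fun j => (a j : K) / b j : Finset K) : Set K) :=
        hv ▸ Algebra.adjoin_mono (by simp)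
      have := blow n K y m _ _ B (a j) (b j) hS.ff ind hm
        (mul_ne_zero h0 (pow_ne_zero _ (Finset.prod_ne_zero_iff.2 fun j _ => b1 j)))
        (fun z => let ⟨s, t, e⟩ := hS.fr z; ⟨s, le s.2, t, le t.2, e⟩) (le (a j).2) (le (b j).2)
        (b1 j) ih
      rw [Finset.prod_insert hj, Finset.image_insert, Finset.union_insert, mul_comm (b j : K),
        mul_pow, ← mul_assoc]
      exact fun c f c0 hf => Algebra.adjoin_le (insert_subset
        (Algebra.subset_adjoin (.inr ⟨j, rfl⟩)) subset_rfl) (this c f c0 hf)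
  obtain ⟨g, g0, c, c0, hg⟩ := twi n K S p y m h v hS.ff hp ind h0 hv klt
  by_cases x0 : x = 0
  · exact ⟨g, g0, by rw [x0, mul_zero]; exact zero_mem _⟩
  have e : Algebra.adjoin ℂ ((S : Set K) ∪ T) = Algebra.adjoin ℂ
      ((v ∪ Finset.univ.image fun j => (a j : K) / b j : Finset K) : Set K) := by
    rw [Finset.coe_union, Finset.coe_image, Finset.coe_univ, image_univ,
      Algebra.adjoin_union, Algebra.adjoin_union, Algebra.adjoin_eq, hv]
  obtain ⟨r, r0, hr⟩ := pole_int (e ▸ hx) x0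
  have P0 : ∏ j, (b j : K) ≠ 0 := Finset.prod_ne_zero_iff.2 fun j _ => b1 j
  obtain ⟨g', g1, hg'⟩ := den hp T (key Finset.univ (c + r) (g * (∏ j, (b j : K)) * x)
    (add_nonneg c0 r0) (.inr fun R => by
      have h1 := hg R
      have h2 := hr R
      have h3 := mul_le_mul_of_nonneg_left (inf_mono (Finset.subset_union_left
        (s₂ := Finset.univ.image fun j => (a j : K) / b j) (s₁ := v)) R) c0
      have m0 : (m : ℝ) ≠ 0 := Nat.cast_ne_zero.2 hm.ne'
      rw [ld] at h1 ⊢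
      rw [Pl.ord_mul _ h0 (pow_ne_zero _ P0), Pl.ord_mul _ (mul_ne_zero (Gf.ne_of g0) P0) x0,
        Pl.ord_mul _ (Gf.ne_of g0) P0, Pl.ord_pow]
      push_cast
      rw [add_div, mul_div_cancel_left₀ _ m0]
      linarith))
  refine ⟨g' * g, fun e => (hp.mem_or_mem e).elim g1 g0, ?_⟩
  rw [Subalgebra.coe_mul, mul_assoc (g' : K), mul_assoc (g' : K)]
  exact hg'

theorem GSKp.gsk (H : GSKp) : GSK := by
  intro n k K _ _ S y m h a b hS nor hy hm h0 b0 bd klt x hx
  let A := Algebra.adjoin ℂ ((S : Set K) ∪ range fun j => (a j : K) / b j)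
  let I : Ideal S :=
    { carrier := {g | (g : K) * ((∏ j, (b j : K)) * x) ∈ A}
      add_mem' := fun {u w} hu hw => by
        change ((u + w : S) : K) * _ ∈ A
        rw [Subalgebra.coe_add, add_mul]
        exact add_mem hu hw
      zero_mem' := by
        change ((0 : S) : K) * _ ∈ A
        rw [Subalgebra.coe_zero, zero_mul]
        exact zero_mem _
      smul_mem' := fun u w hw => by
        change ((u * w : S) : K) * _ ∈ A
        rw [Subalgebra.coe_mul, mul_assoc]
        exact mul_mem (Algebra.subset_adjoin (.inl u.2)) hw }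
  have : I = ⊤ := by
    by_contra ne
    obtain ⟨p, pm, le⟩ := I.exists_le_maximal ne
    obtain ⟨g, g0, hg⟩ := H n k K S p y m h a b hS nor pm.isPrime hy hm h0 b0
      (fun R ⟨q, _, c⟩ => bd R ⟨q, c⟩) (fun R hR => klt R hR.1) x hx
    exact g0 (le (by rwa [mul_assoc] at hg))
  have one : (1 : S) ∈ I := this ▸ Submodule.mem_top
  change ((1 : S) : K) * _ ∈ A at one
  rwa [Subalgebra.coe_one, one_mul] at one

theorem gsk_of (blow : BLOW) (twi : TWI) : GSK := (gskp_of blow twi).gsk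

end Vale.Agent.P283R.Ws
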