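import Vale.Agent.P283R.Ws.Gskt

/-!
# P283R: the weighted theorem of Skoda
-/

open Set
open scoped IntermediateField
open Vale.Agent.P297Z

noncomputable section

namespace Vale.Agent.P283R.Ws

open Vale.Agent.P287D Vale.Agent.P283M Vale.Agent.P283R.Sk1 Vale.Agent.P287D.Hd.Ln

variable {K L : Type} [Field K] [Algebra ℂ K] [Field L] [Algebra ℂ L] [Algebra K L]
  [IsScalarTower ℂ K L] {n k : ℕ} {z : L} {S : Subalgebra ℂ K} {y : Fin n → K} {m : ℕ} {h : K}

/-- the product of a klt variety with the line is klt -/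
theorem klt_line (hK : FF K n) (hz : Hd.Ru K z) (ind : AlgebraicIndependent ℂ y)
    (klt : ∀ R : Pl K, (∀ s ∈ S, s ∈ R.ring) → 0 < ld y m h R) (P : Pl L) (zP : z ∈ P.ring)
    (hP : ∀ s ∈ S, algebraMap K L s ∈ P.ring) : 0 < ld (cw y z) m (algebraMap K L h) P := by
  obtain t | ⟨Q, l⟩ : Hd.Tv K P ∨ ∃ Q, Hd.Ov K P Q := (hz.ff hK).ok (IsScalarTower.toAlgHom ℂ K L) P
  · rw [ld, kap_fin hK hz ind t zP, tv_ord t]
    simp
  · have k1 := k4 hK (hz.ff hK) l (cw_ind hz ind)
    have e0 : (0 : ℝ) < Hd.ei P Q := by exact_mod_cast l.e_pos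
    have k2 := mul_pos e0 (klt Q fun s hs => (l s).2 (hP s hs))
    have o : (0 : ℝ) ≤ P.ord z := by exact_mod_cast Pl.ord_nonneg_of_mem _ zP
    rw [ld] at k2 ⊢
    rw [l.ord h, Int.cast_mul, mul_div_assoc]
    rw [Hd.ei] at k1 k2
    linarith

/-- **GSKZ** -/
theorem gskz (hz : Hd.Ru K z) (hS : Aff n S) (nor : IsIntegrallyClosed S) (hy : Frm y)
    (hm : 0 < m) (h0 : h ≠ 0) (bd : ∀ R, PD S R → ld y m h R ≤ 1)
    (klt : ∀ R : Pl K, (∀ s ∈ S, s ∈ R.ring) → 0 < ld y m h R) (a : Fin k → K)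
    (aS : ∀ j, a j ∈ S) (v : Fin k → ℕ) (x : L)
    (hx : IsIntegral (Algebra.adjoin ℂ (insert z
      (algebraMap K L '' S ∪ range fun j => algebraMap K L (a j) / z ^ v j))) x) :
    z ^ (∑ j, v j) * x ∈ Algebra.adjoin ℂ (insert z
      (algebraMap K L '' S ∪ range fun j => algebraMap K L (a j) / z ^ v j)) := by
  classical
  obtain ⟨u, hu⟩ := hS.fg
  let S₁ := Algebra.adjoin ℂ ((insert z (u.image (algebraMap K L)) : Finset L) : Set L)
  have zS : z ∈ S₁ := Algebra.subset_adjoin (by simp)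
  have up : ∀ s ∈ S, algebraMap K L s ∈ S₁ := fun s hs =>
    (hu.ge.trans (Algebra.adjoin_le (S := S₁.comap (IsScalarTower.toAlgHom ℂ K L)) fun s hs =>
      Algebra.subset_adjoin (Finset.mem_coe.2 (Finset.mem_insert_of_mem
        (Finset.mem_image_of_mem _ hs))))) hs
  have e : Algebra.adjoin ℂ (insert z (algebraMap K L '' S ∪
      range fun j => algebraMap K L (a j) / z ^ v j)) =
      Algebra.adjoin ℂ ((S₁ : Set L) ∪ range fun j => algebraMap K L (a j) / z ^ v j) := by
    refine le_antisymm (Algebra.adjoin_mono (insert_subset (.inl zS)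
      (union_subset_union_left _ (image_subset_iff.2 up)))) (Algebra.adjoin_le (union_subset
        (Algebra.adjoin_mono ?_) fun _ hs => Algebra.subset_adjoin (.inr (.inr hs))))
    rw [Finset.coe_insert, Finset.coe_image]
    exact insert_subset_insert ((image_mono (hu ▸ Algebra.subset_adjoin)).trans subset_union_left)
  rw [e] at hx ⊢
  rw [← Finset.prod_pow_eq_pow_sum]
  refine gskt (n + 1) k L S₁ _ (cw y z) m (algebraMap K L h) _ (fun j => z ^ v j) (hz.ff hS.ff)
    (cw_ind hz hy.ind) hm ((map_ne_zero _).2 h0) rfl (fun w => ?_) (fun c f c0 hf => ?_)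
    (fun P hP => klt_line hS.ff hz hy.ind klt P (hP z zS) fun s hs => hP _ (up s hs))
    (fun j => up _ (aS j)) (fun j => pow_mem zS _) (fun j => pow_ne_zero _ hz.ne_zero) x hx
  · refine IntermediateField.mem_adjoin_iff_div.1 ?_
    have le := IntermediateField.algebra_adjoin_le_adjoin ℂ
      ((insert z (u.image (algebraMap K L)) : Finset L) : Set L)
    have : w ∈ K⟮z⟯ := hz.2.ge trivial
    induction this using IntermediateField.adjoin_induction with
    | mem w hw => exact hw ▸ le zS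
    | algebraMap b =>
      obtain ⟨s, t, rfl⟩ := hS.fr b
      rw [map_div₀]
      exact div_mem (le (up _ s.2)) (le (up _ t.2))
    | add _ _ _ _ p q => exact add_mem p q
    | inv _ _ p => exact inv_mem p
    | mul _ _ _ _ p q => exact mul_mem p q
  · obtain ⟨p, hp, rfl⟩ := L45.line n K L z y m h u S hS.ff hz hy.ind h0
      (top_of hS nor (fun s hs => hu ▸ Algebra.subset_adjoin hs) bd) c f c0 hf
    rw [Polynomial.aeval_eq_sum_range]
    exact sum_mem fun i _ => by
      rw [Algebra.smul_def]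
      exact mul_mem (up _ (hp i)) (pow_mem zS _)

end Vale.Agent.P283R.Ws
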