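import Vale.Agent.P283R.Ws.Emb
import Vale.Agent.P283R.Ws.Gskz
import Vale.Agent.P283R.Cx.All
import Vale.Agent.P283R.Cy.Mkf

/-!
# P283R, block WS: the Rees ring of small weights is normal with reduced special fibre
-/

open Set
open Vale.Agent.P297Z

noncomputable section

namespace Vale.Agent.P283R.Ws

open Vale.Agent.P287D Vale.Agent.P283R.Cx Vale.Agent.P283R.Cy Vale.Agent.P283R.Hw
open Vale.Agent.P283R.To (mon)

theorem zpow_sum' {L ι : Type} [Field L] {z : L} (z0 : z ≠ 0) (s : Finset ι) (f : ι → ℤ) :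
    z ^ ∑ i ∈ s, f i = ∏ i ∈ s, z ^ f i := by
  classical
  induction s using Finset.induction_on with
  | empty => simp
  | insert i s hi ih => rw [Finset.sum_insert hi, Finset.prod_insert hi, zpow_add₀ z0, ih]

/-- **NRM** -/
theorem nrm : NRM := by
  intro K F _ _ _ _ _ _ d k N c q ε y t T D s a f h g δ b ξ n r q0 e0 x X r0 hr hz hs
  obtain ⟨J, _, _, _, _, u, xu⟩ := Cx.ext K d k X.ff
  obtain ⟨L, _, _, _, _, w, xw⟩ := Cx.ext J (d + k) 1 xu.ff'
  have ru : Hd.Ru J (w 0) := ⟨xw.ind.transcendental 0, by simpa [range_unique] using xw.gen⟩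
  generalize w 0 = z at ru
  let _ : Algebra K L := ((algebraMap J L).comp (algebraMap K J)).toAlgebra
  have : IsScalarTower K J L := IsScalarTower.of_algebraMap_eq' rfl
  have : IsScalarTower ℂ K L := IsScalarTower.of_algebraMap_eq fun c => by
    rw [IsScalarTower.algebraMap_apply K J L, ← IsScalarTower.algebraMap_apply ℂ K J,
      ← IsScalarTower.algebraMap_apply ℂ J L]
  choose e he using hr
  obtain ⟨φ, h1, h2, h3⟩ := Em.emb x xu ru (fun i => 2 * e i) (r := 2 * r) (by omega)
  let _ : Algebra F L := φ.toRingHom.toAlgebra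
  have : IsScalarTower ℂ F L := IsScalarTower.of_algebraMap_eq fun c => by
    rw [IsScalarTower.algebraMap_apply ℂ K F, IsScalarTower.algebraMap_apply ℂ K L]
    exact (φ.commutes _).symm
  have z0 : z ≠ 0 := fun e => ru.1 (e ▸ isAlgebraic_zero)
  have r' : (0 : ℝ) < r := Nat.cast_pos.2 r0
  have hv : ∀ j, ∃ v : ℕ, (v : ℤ) = ∑ i, a j i * (2 * e i) + 2 * r * n j ∧
      (v : ℝ) = 2 * r * ze a ξ n j := fun j => by
    have e1 : ((∑ i, a j i * (2 * e i) + 2 * r * n j : ℤ) : ℝ) = 2 * r * ze a ξ n j := by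
      simp only [ze, pa, mul_add, Finset.mul_sum]
      push_cast
      simp only [← he]
      exact congrArg (· + _) (Finset.sum_congr rfl fun i _ => by ring)
    have e2 : 0 ≤ ∑ i, a j i * (2 * e i) + 2 * r * n j := by
      have := mul_nonneg (mul_pos two_pos r').le (hz j)
      rw [← e1] at this
      exact_mod_cast this
    exact ⟨_, Int.toNat_of_nonneg e2, by
      rw [← e1, ← Int.cast_natCast, Int.toNat_of_nonneg e2]⟩
  choose v v1 v2 using hv
  have hV : 2 * ∑ j, v j + 2 ≤ 2 * r := by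
    have : ((∑ j, v j : ℕ) : ℝ) < r := by
      push_cast
      simp only [v2, ← Finset.mul_sum]
      nlinarith
    have : ∑ j, v j < r := by exact_mod_cast this
    omega
  have key : ∀ j, φ (hm t (s j) (dn (a j) (-n j))) =
      algebraMap J L (hm u (s j) (a j)) / z ^ v j := fun j => by
    rw [A0.hm_dn, ← zpow_natCast, v1, zpow_add₀ z0, zpow_sum' z0]
    simp only [hm, mon, map_mul, map_prod, map_zpow₀, h1, h2, φ.commutes, div_zpow,
      Finset.prod_div_distrib, ← IsScalarTower.algebraMap_apply, ← zpow_mul, mul_comm (2 * e _)]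
    rw [← zpow_natCast, ← zpow_mul, mul_neg, zpow_neg]
    push_cast
    field_simp
  have ht := xu.ind.ne_zero
  have g1 := mul_ne_zero X.h0 (inv_ne_zero X.g0)
  obtain ⟨l1, l2⟩ := lar K J d k y u xu X.fr 1 one_pos
  have q' : (0 : ℝ) < q := Nat.cast_pos.2 q0
  have dv : ∀ R : Pl J, ld (zt y fun i => u i ^ 1) (q * 1) (Cr.tw u (h * g⁻¹) (δ + -b) q 1 1) R =
      lt y u R - (R.ord (hm u h δ) : ℝ) / q + (R.ord (hm u g b) : ℝ) / q := fun R => by
    rw [Cr.ld_tw ht g1 q0 one_pos l2, hm_mul ht, hm_inv ht, ← div_eq_mul_inv,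
      Pl.ord_div _ (hm_ne ht X.h0 _) (hm_ne ht X.g0 _)]
    push_cast
    ring
  have sk := gskz ru
    (aff K J d k y u xu X.fr _ T D s a X.cox) (nor K J d k y u xu X.fr _ T D s a X.cox) l1
    (by omega) (hm_ne ht (pow_ne_zero _ g1) _) (fun R c => by
      refine (dv R).trans_le (le_of_eq ?_)
      obtain ⟨E, hE, v⟩ | z := pdv K J d k y u xu X.fr _ T D s a X.cox R c
      · rw [v.lt, v.ord _ _ X.h0, v.ord _ _ X.g0, X.eq E hE]
        field_simp
        ring
      · rw [kah K J d k y u xu X.fr _ T D s a X.cox R c z, z _ _ X.h0, z _ _ X.g0]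
        simp)
    (fun R hR => (Mp.lk q0 e0 X xu R hR).2.trans_eq (dv R).symm) _ (gen_mem s a u) v
  have H : Half (R0 s a n t) (t (Fin.last k)) := by
    refine half _ (A0.last_mem s a n t) (x.ind.ne_zero _) (τ := z) h2.symm hV
      (indep z0 (by omega) fun ω hω => ?_) (le_antisymm ?_ ?_) sk
    · obtain ⟨ρ, k1, k2⟩ := h3 ω hω
      exact ⟨{ ρ.toRingHom with commutes' := k2 }, k1⟩
    · set B := Algebra.adjoin ℂ (insert z (algebraMap F L '' R0 s a n t))
      have zB : z ∈ B := Algebra.subset_adjoin (mem_insert _ _)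
      have gB : ∀ j, algebraMap J L (hm u (s j) (a j)) / z ^ v j ∈ B := fun j =>
        Algebra.subset_adjoin (mem_insert_of_mem _ ⟨_, A0.gen_mem' s a n t j, key j⟩)
      have : Rg s a u ≤ B.comap (IsScalarTower.toAlgHom ℂ J L) := Algebra.adjoin_le (by
        rintro _ ⟨j, rfl⟩
        have := mul_mem (gB j) (pow_mem zB (v j))
        rwa [div_mul_cancel₀ _ (pow_ne_zero _ z0)] at this)
      refine Algebra.adjoin_le (insert_subset zB (union_subset ?_ ?_))
      · rintro _ ⟨p, hp, rfl⟩
        exact this hp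
      · rintro _ ⟨j, rfl⟩
        exact gB j
    · set B := Algebra.adjoin ℂ (insert z (algebraMap J L '' Rg s a u ∪
        range fun j => algebraMap J L (hm u (s j) (a j)) / z ^ v j))
      have zB : z ∈ B := Algebra.subset_adjoin (mem_insert _ _)
      have : R0 s a n t ≤ B.comap (IsScalarTower.toAlgHom ℂ F L) := Algebra.adjoin_le (by
        rintro _ ⟨j, rfl⟩
        change φ _ ∈ B
        induction j using Fin.lastCases with
        | last =>
          simp only [sn, an, Fin.snoc_last, A0.hm_dn, hm_one, one_mul, zpow_one, h2]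
          exact pow_mem zB _
        | cast j =>
          simp only [sn, an, Fin.snoc_castSucc, key]
          exact Algebra.subset_adjoin (mem_insert_of_mem _ (.inr ⟨j, rfl⟩)))
      refine Algebra.adjoin_le (insert_subset zB ?_)
      rintro _ ⟨p, hp, rfl⟩
      exact this hp
  exact ⟨H.nor (A0.last_mem s a n t) (x.ind.ne_zero _) (af0 K F d k N t T D s a n x X.cox).fr,
    fun W hW => H.ord (x.ind.ne_zero _) hW⟩

end Vale.Agent.P283R.Ws
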