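import Vale.Agent.P283R.Tp.St
import Vale.Agent.P287D.Cb.Lg

/-!
# P283R, block WS: from the weighted theorem of Skoda to a reduced central fibre
-/

open Set Polynomial

noncomputable section

namespace Vale.Agent.P283R.Ws

open Vale.Agent.P287D Vale.Agent.P297Z

section

variable {E L : Type} [Field E] [Algebra ℂ E] [Field L] [Algebra ℂ L] [Algebra E L]
  [IsScalarTower ℂ E L]

/-- if `y ^ 2 / σ` is integral then `σ` divides `y` -/
def Half (R : Subalgebra ℂ E) (σ : E) : Prop := ∀ y : E, IsIntegral R (y ^ 2 / σ) → y / σ ∈ R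

omit [Algebra ℂ E] [IsScalarTower ℂ E L] in
theorem indep {τ : L} (τ0 : τ ≠ 0) {r : ℕ} (r0 : 0 < r)
    (h : ∀ ω : ℂ, ω ^ r = 1 → ∃ ρ : L →ₐ[E] L, ρ τ = algebraMap ℂ L ω * τ) (p : E[X])
    (hp : p.natDegree < r) (p0 : aeval τ p = 0) : p = 0 := by
  have hω := Complex.isPrimitiveRoot_exp r r0.ne'
  set ω := Complex.exp (2 * Real.pi * Complex.I / r)
  have : p.map (algebraMap E L) = 0 := by
    refine eq_zero_of_natDegree_lt_card_of_eval_eq_zero _
      (f := fun i : Fin r => algebraMap ℂ L (ω ^ (i : ℕ)) * τ) (fun i j e => ?_) (fun i => ?_) ?_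
    · exact Fin.ext (hω.pow_inj i.2 j.2 ((algebraMap ℂ L).injective (mul_right_cancel₀ τ0 e)))
    · obtain ⟨ρ, e⟩ := h (ω ^ (i : ℕ)) (by rw [← pow_mul, mul_comm, pow_mul, hω.pow_eq_one, one_pow])
      rw [eval_map_algebraMap, ← e, aeval_algHom_apply, p0, map_zero]
    · rwa [natDegree_map, Fintype.card_fin]
  exact (Polynomial.map_eq_zero_iff (algebraMap E L).injective).1 this

theorem mem_adj (R : Subalgebra ℂ E) (τ : L) {x : L}
    (hx : x ∈ Algebra.adjoin ℂ (insert τ (algebraMap E L '' R))) :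
    ∃ p : R[X], x = aeval τ (p.map (algebraMap R E)) := by
  induction hx using Algebra.adjoin_induction with
  | mem x hx =>
    rcases hx with rfl | ⟨a, ha, rfl⟩
    · exact ⟨X, by simp⟩
    · exact ⟨C ⟨a, ha⟩, by simp⟩
  | algebraMap c =>
    exact ⟨C (algebraMap ℂ R c), by simp [← IsScalarTower.algebraMap_apply]⟩
  | add x y _ _ hx hy =>
    obtain ⟨p, rfl⟩ := hx
    obtain ⟨q, rfl⟩ := hy
    exact ⟨p + q, by simp⟩
  | mul x y _ _ hx hy =>
    obtain ⟨p, rfl⟩ := hx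
    obtain ⟨q, rfl⟩ := hy
    exact ⟨p * q, by simp⟩

theorem half (R : Subalgebra ℂ E) {σ : E} (hσ : σ ∈ R) (σ0 : σ ≠ 0) {τ : L} {r V : ℕ}
    (hτ : τ ^ r = algebraMap E L σ) (hV : 2 * V + 2 ≤ r)
    (li : ∀ p : E[X], p.natDegree < r → aeval τ p = 0 → p = 0) {A : Subalgebra ℂ L}
    (hA : A = Algebra.adjoin ℂ (insert τ (algebraMap E L '' R)))
    (sk : ∀ x : L, IsIntegral A x → τ ^ V * x ∈ A) : Half R σ := by
  intro y hy
  have s0 : algebraMap E L σ ≠ 0 := (_root_.map_ne_zero _).2 σ0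
  have τ0 : τ ≠ 0 := by
    rintro rfl
    rw [zero_pow (by omega)] at hτ
    exact s0 hτ.symm
  have tA : τ ∈ A := hA ▸ Algebra.subset_adjoin (mem_insert _ _)
  have RA : ∀ a : R, algebraMap E L a ∈ A := fun a =>
    hA ▸ Algebra.subset_adjoin (mem_insert_of_mem _ ⟨a, a.2, rfl⟩)
  obtain ⟨l, rfl⟩ : ∃ l, r = 2 * (V + 1) + l := ⟨r - 2 * (V + 1), by omega⟩
  have i1 : IsIntegral A (algebraMap E L (y ^ 2 / σ)) :=
    hy.map_of_comp_eq (φ := ((algebraMap E L).comp R.val.toRingHom).codRestrict A RA)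
      (ψ := algebraMap E L) rfl
  have i2 : IsIntegral A (algebraMap E L y / τ ^ (V + 1)) := by
    refine IsIntegral.of_pow (n := 2) two_pos ?_
    have : (algebraMap E L y / τ ^ (V + 1)) ^ 2 =
        algebraMap E L (y ^ 2 / σ) * algebraMap A L ⟨τ ^ l, pow_mem tA l⟩ := by
      change _ = _ * τ ^ l
      rw [map_div₀, map_pow, ← hτ]
      field_simp
      ring
    rw [this]
    exact i1.mul isIntegral_algebraMap
  obtain ⟨p, hp⟩ := mem_adj R τ (hA ▸ sk _ i2)
  set r := 2 * (V + 1) + l with hr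
  have mo : (X ^ r - C (⟨σ, hσ⟩ : R)).Monic := monic_X_pow_sub_C _ (by omega)
  have e1 : aeval τ ((p %ₘ (X ^ r - C (⟨σ, hσ⟩ : R))).map (algebraMap R E)) =
      aeval τ (p.map (algebraMap R E)) := by
    conv_rhs => rw [← modByMonic_add_div p (X ^ r - C (⟨σ, hσ⟩ : R))]
    simp [hτ]
  have d1 : (p %ₘ (X ^ r - C (⟨σ, hσ⟩ : R))).natDegree < r := by
    have := natDegree_modByMonic_lt p mo (fun e => by
      have := congrArg natDegree e
      rw [natDegree_X_pow_sub_C, natDegree_one] at this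
      omega)
    rwa [natDegree_X_pow_sub_C] at this
  have := li ((p %ₘ (X ^ r - C (⟨σ, hσ⟩ : R))).map (algebraMap R E) - monomial (r - 1) (y / σ))
    ((natDegree_sub_le _ _).trans_lt (max_lt (natDegree_map_le.trans_lt d1)
      ((natDegree_monomial_le _).trans_lt (by omega)))) (by
      rw [map_sub, e1, ← hp, aeval_monomial, map_div₀, ← hτ, sub_eq_zero]
      obtain ⟨j, hj⟩ : ∃ j, r = j + 1 := ⟨r - 1, by omega⟩
      rw [hj, Nat.add_sub_cancel]
      field_simp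
      ring)
  have := congrArg (coeff · (r - 1)) (sub_eq_zero.1 this)
  simp only [coeff_map, coeff_monomial, if_true] at this
  exact this ▸ (coeff _ _ : R).2

theorem Half.mem {R : Subalgebra ℂ E} {σ : E} (h : Half R σ) (hσ : σ ∈ R) (σ0 : σ ≠ 0) {x : E}
    (hx : IsIntegral R x) : x ∈ R := by
  have := h (σ * x) (by
    have : (σ * x) ^ 2 / σ = algebraMap R E ⟨σ, hσ⟩ * x ^ 2 := by
      change _ = σ * _
      field_simp
    rw [this]
    exact isIntegral_algebraMap.mul (hx.pow 2))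
  rwa [mul_div_cancel_left₀ _ σ0] at this

theorem Half.nor {R : Subalgebra ℂ E} {σ : E} (h : Half R σ) (hσ : σ ∈ R) (σ0 : σ ≠ 0)
    (fr : ∀ a : E, ∃ s t : R, a = s / t) : IsIntegrallyClosed R := by
  have : IsFractionRing R E := IsFractionRing.of_field R E fr
  exact (isIntegrallyClosed_iff E).2 fun hx => ⟨⟨_, h.mem hσ σ0 hx⟩, rfl⟩

theorem Half.ord {R : Subalgebra ℂ E} {σ : E} (h : Half R σ) (σ0 : σ ≠ 0) {W : Pl E}
    (hW : PD R W) (pos : 0 < W.ord σ) : W.ord σ = 1 := by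
  obtain ⟨q, c, lo⟩ := hW
  by_contra ne
  have t0 := W.t_ne
  have y0 : W.t ^ (W.ord σ - 1) ≠ 0 := zpow_ne_zero _ t0
  have oy : W.ord (W.t ^ (W.ord σ - 1)) = W.ord σ - 1 := by
    rw [Pl.ord_zpow, W.ord_t, mul_one]
  obtain ⟨s, b, hb, e⟩ := lo ((W.t ^ (W.ord σ - 1)) ^ 2 / σ) (by
    refine (Pl.ord_nonneg_iff _ (div_ne_zero (pow_ne_zero _ y0) σ0)).1 ?_
    rw [Pl.ord_div _ (pow_ne_zero _ y0) σ0, Pl.ord_pow, oy]
    push_cast
    omega)
  have b0 : (b : E) ≠ 0 := fun e => hb (by rw [show b = 0 from Subtype.ext e]; exact q.zero_mem)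
  have ob : W.ord (b : E) = 0 := by
    have h1 := Pl.ord_nonneg_of_mem _ (c b).1
    have h2 := mt (c b).2.2 hb
    rw [Cb.rd_eq_zero (c b).1, Cb.mx_iff] at h2
    push Not at h2
    omega
  have := h (b * W.t ^ (W.ord σ - 1)) (by
    have : ((b : E) * W.t ^ (W.ord σ - 1)) ^ 2 / σ = algebraMap R E (b * s) := by
      change _ = (b : E) * s
      rw [mul_pow, mul_div_assoc, e]
      field_simp
    rw [this]
    exact isIntegral_algebraMap)
  have := Pl.ord_nonneg_of_mem _ (c ⟨_, this⟩).1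
  rw [Pl.ord_div _ (mul_ne_zero b0 y0) σ0, Pl.ord_mul _ b0 y0, ob, oy] at this
  omega

end

end Vale.Agent.P283R.Ws
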