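import Vale.Agent.P283R.Ws.Gsk
import Vale.Agent.P283R.Be2.SkL45
import Vale.Agent.P283R.Be2.SkT

/-!
# P283R: the theorem of Skoda, the base as a hypothesis
-/

open Set
open Vale.Agent.P297Z

noncomputable section

namespace Vale.Agent.P283R.Ws

open Vale.Agent.P287D Vale.Agent.P283M Vale.Agent.P283R.Sk1

/-- **GSKT** -/
def GSKT : Prop := ∀ (n k : ℕ) (K : Type) [Field K] [Algebra ℂ K] (S : Subalgebra ℂ K)
  (v : Finset K) (y : Fin n → K) (m : ℕ) (h : K) (a b : Fin k → K), FF K n →
    AlgebraicIndependent ℂ y → 0 < m → h ≠ 0 → Algebra.adjoin ℂ (v : Set K) = S →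
    (∀ x : K, ∃ b ∈ S, ∃ c ∈ S, x = b / c) → Top y m h v S →
    (∀ R : Pl K, (∀ s ∈ S, s ∈ R.ring) → 0 < ld y m h R) → (∀ j, a j ∈ S) → (∀ j, b j ∈ S) →
    (∀ j, b j ≠ 0) → ∀ x : K, IsIntegral (Algebra.adjoin ℂ ((S : Set K) ∪ range fun j => a j / b j)) x →
      (∏ j, b j) * x ∈ Algebra.adjoin ℂ ((S : Set K) ∪ range fun j => a j / b j)

theorem gskp : GSKp := gskp_of L45.blow twi

theorem gsk : GSK := gskp.gsk

variable {K : Type} [Field K] [Algebra ℂ K] {n : ℕ}

/-- the adjoint functions on a normal affine variety with an effective boundary are regular -/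
theorem top_of {S : Subalgebra ℂ K} {v : Finset K} {y : Fin n → K} {m : ℕ} {h : K} (hS : Aff n S)
    (nor : IsIntegrallyClosed S) (hv : ∀ s ∈ v, s ∈ S) (bd : ∀ R, PD S R → ld y m h R ≤ 1) :
    Top y m h v S := fun c f _ hf => by
  refine (hrt n K S hS nor).2.1 f fun R hR => ?_
  by_cases f0 : f = 0
  · rw [f0]
    exact zero_mem _
  have h1 := hf.resolve_left f0 R
  obtain ⟨q, cen, -⟩ := id hR
  rw [Kl.inf_zero.2 fun s hs => (cen ⟨s, hv s hs⟩).1] at h1
  have h2 : (-1 : ℝ) < R.ord f := by linarith [bd R hR]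
  have h3 : -1 < R.ord f := by exact_mod_cast h2
  exact (Pl.ord_nonneg_iff _ f0).1 (by omega)

/-- **GSKT** -/
theorem gskt : GSKT := by
  classical
  intro n k K _ _ S v y m h a b hK ind hm h0 hv fr base klt aS bS b1 x hx
  set T := range fun j => a j / b j
  let B := Algebra.adjoin ℂ ((S : Set K) ∪ T)
  have SB : S ≤ B := fun s hs => Algebra.subset_adjoin (.inl hs)
  have key : ∀ J : Finset (Fin k),
      Top y m (h * (∏ j ∈ J, b j) ^ m) (v ∪ J.image fun j => a j / b j) B := fun J => by
    induction J using Finset.induction_on with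
    | empty =>
      have : Top y m h v B := fun c f c0 hf => SB (base c f c0 hf)
      simpa using this
    | insert j J hj ih =>
      have le : S ≤ Algebra.adjoin ℂ ((v ∪ J.image fun j => a j / b j : Finset K) : Set K) :=
        hv ▸ Algebra.adjoin_mono (by simp)
      have := L45.blow n K y m _ _ B (a j) (b j) hK ind hm
        (mul_ne_zero h0 (pow_ne_zero _ (Finset.prod_ne_zero_iff.2 fun j _ => b1 j)))
        (fun z => let ⟨s, hs, t, ht, e⟩ := fr z; ⟨s, le hs, t, le ht, e⟩) (le (aS j)) (le (bS j))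
        (b1 j) ih
      rw [Finset.prod_insert hj, Finset.image_insert, Finset.union_insert, mul_comm (b j),
        mul_pow, ← mul_assoc]
      exact fun c f c0 hf => Algebra.adjoin_le (insert_subset
        (Algebra.subset_adjoin (.inr ⟨j, rfl⟩)) subset_rfl) (this c f c0 hf)
  by_cases x0 : x = 0
  · rw [x0, mul_zero]
    exact zero_mem _
  have e : Algebra.adjoin ℂ ((S : Set K) ∪ T) =
      Algebra.adjoin ℂ ((v ∪ Finset.univ.image fun j => a j / b j : Finset K) : Set K) := by
    rw [Finset.coe_union, Finset.coe_image, Finset.coe_univ, image_univ, Algebra.adjoin_union,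
      Algebra.adjoin_union, Algebra.adjoin_eq, hv]
  obtain ⟨r, r0, hr⟩ := pole_int (e ▸ hx) x0
  have P0 : ∏ j, b j ≠ 0 := Finset.prod_ne_zero_iff.2 fun j _ => b1 j
  let I : Ideal S :=
    { carrier := {g | (g : K) * ((∏ j, b j) * x) ∈ B}
      add_mem' := fun {u w} hu hw => by
        change ((u + w : S) : K) * _ ∈ B
        rw [Subalgebra.coe_add, add_mul]
        exact add_mem hu hw
      zero_mem' := by
        change ((0 : S) : K) * _ ∈ B
        rw [Subalgebra.coe_zero, zero_mul]
        exact zero_mem _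
      smul_mem' := fun u w hw => by
        change ((u * w : S) : K) * _ ∈ B
        rw [Subalgebra.coe_mul, mul_assoc]
        exact mul_mem (SB u.2) hw }
  have : I = ⊤ := by
    by_contra ne
    obtain ⟨p, pm, le⟩ := I.exists_le_maximal ne
    obtain ⟨g, g0, c, c0, hg⟩ := twi n K S p y m h v hK pm.isPrime ind h0 hv fun R hR => klt R hR.1
    refine g0 (le (key Finset.univ (c + r) _ (add_nonneg c0 r0) (.inr fun R => ?_)))
    have h1 := hg R
    have h2 := hr R
    have h3 := mul_le_mul_of_nonneg_left (inf_mono (Finset.subset_union_left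
      (s₂ := Finset.univ.image fun j => a j / b j) (s₁ := v)) R) c0
    have m0 : (m : ℝ) ≠ 0 := Nat.cast_ne_zero.2 hm.ne'
    rw [ld] at h1 ⊢
    rw [Pl.ord_mul _ h0 (pow_ne_zero _ P0), Pl.ord_mul _ (Gf.ne_of g0) (mul_ne_zero P0 x0),
      Pl.ord_mul _ P0 x0, Pl.ord_pow]
    push_cast
    rw [add_div, mul_div_cancel_left₀ _ m0]
    linarith
  have one : (1 : S) ∈ I := this ▸ Submodule.mem_top
  change ((1 : S) : K) * _ ∈ B at one
  rwa [Subalgebra.coe_one, one_mul] at one

end Vale.Agent.P283R.Ws
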