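import Vale.Agent.P283R.Ws.Half
import Vale.Agent.P283R.Hw.Af0
import Vale.Agent.P283R.Cx.Gav
import Vale.Agent.P287D.Hd.St

/-!
# P283R, block WS: the cyclic cover of the field of the Rees ring
-/

open Set IntermediateField

noncomputable section

namespace Vale.Agent.P283R.Ws.Em

open Vale.Agent.P287D Vale.Agent.P283R.Cx Vale.Agent.P283R.Hw
open Vale.Agent.P283R.To (mon)

section

variable {K F L ι : Type} [Field K] [Field F] [Field L] [Algebra K F] [Algebra K L] {t : ι → F}

theorem lift (hi : AlgebraicIndependent K t) (ht : adjoin K (range t) = ⊤) {s : ι → L}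
    (hs : AlgebraicIndependent K s) : ∃ φ : F →ₐ[K] L, ∀ i, φ (t i) = s i := by
  let e : F ≃ₐ[K] adjoin K (range t) := ((equivOfEq ht).trans topEquiv).symm
  refine ⟨(val _).comp
    (e.trans (hi.aevalEquivField.symm.trans hs.aevalEquivField)).toAlgHom, fun i => ?_⟩
  have : e (t i) = hi.aevalEquivField (algebraMap (MvPolynomial ι K) _ (.X i)) :=
    Subtype.ext (by rw [hi.aevalEquivField_algebraMap_apply_coe]; simp [e])
  simp [this]

theorem hom_ext (ht : adjoin K (range t) = ⊤) {φ ψ : F →ₐ[K] L} (h : ∀ i, φ (t i) = ψ (t i))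
    (x : F) : φ x = ψ x := by
  have : x ∈ adjoin K (range t) := ht ▸ trivial
  induction this using adjoin_induction with
  | mem x hx => obtain ⟨i, rfl⟩ := hx; exact h i
  | algebraMap x => rw [φ.commutes, ψ.commutes]
  | add x y _ _ u v => rw [map_add, map_add, u, v]
  | inv x _ u => rw [map_inv₀, map_inv₀, u]
  | mul x y _ _ u v => rw [map_mul, map_mul, u, v]

theorem basis (hi : AlgebraicIndependent K t) (ht : adjoin K (range t) = ⊤) :
    IsTranscendenceBasis K t :=
  hi.isTranscendenceBasis_iff_isAlgebraic.2 (isAlgebraic_adjoin_iff_top.1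
    ⟨fun x => isAlgebraic_algebraMap (⟨x, ht ▸ trivial⟩ : adjoin K (range t))⟩)

end

variable {K F J L : Type} [Field K] [Algebra ℂ K] [Field F] [Algebra ℂ F] [Algebra K F] [Field J]
  [Algebra ℂ J] [Algebra K J] [Field L] [Algebra ℂ L] [Algebra K L] [Algebra J L]
  [IsScalarTower K J L] [IsScalarTower ℂ K L] {d k : ℕ} {t : Fin (k + 1) → F} {u : Fin k → J}
  {z : L}

/-- the cover -/
theorem emb (x : Ext K d t) (xu : Ext K d u) (ru : Hd.Ru J z) (c : Fin k → ℤ) {r : ℕ}
    (r0 : 0 < r) : ∃ φ : F →ₐ[K] L, (∀ i, φ (t i.castSucc) = algebraMap J L (u i) / z ^ c i) ∧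
      φ (t (Fin.last k)) = z ^ r ∧ ∀ ω : ℂ, ω ^ r = 1 → ∃ ρ : L →ₐ[K] L,
        ρ z = algebraMap ℂ L ω * z ∧ ∀ a, ρ (φ a) = φ a := by
  let T : Unit ⊕ Fin k → L := Sum.elim (fun _ => z) (algebraMap J L ∘ u)
  have i2 : AlgebraicIndependent K T :=
    xu.ind.sumElim_comp (algebraicIndependent_unique_type_iff (x := fun _ : Unit => z).2 ru.1)
  have z0 : z ≠ 0 := i2.ne_zero (.inl ())
  have g1 : ∀ a : J, algebraMap J L a ∈ adjoin K (range T) := fun a => by
    have : a ∈ adjoin K (range u) := xu.gen ▸ trivial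
    induction this using adjoin_induction with
    | mem x hx => obtain ⟨i, rfl⟩ := hx; exact subset_adjoin _ _ ⟨.inr i, rfl⟩
    | algebraMap x => rw [← IsScalarTower.algebraMap_apply]; exact _root_.algebraMap_mem _ _
    | add x y _ _ u v => rw [map_add]; exact add_mem u v
    | inv x _ u => rw [map_inv₀]; exact inv_mem u
    | mul x y _ _ u v => rw [map_mul]; exact mul_mem u v
  have g2 : adjoin K (range T) = ⊤ := eq_top_iff.2 fun a _ => by
    have : a ∈ adjoin J {z} := ru.2 ▸ trivial
    induction this using adjoin_induction with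
    | mem x hx => exact hx ▸ subset_adjoin _ _ ⟨.inl (), rfl⟩
    | algebraMap x => exact g1 x
    | add x y _ _ u v => exact add_mem (u trivial) (v trivial)
    | inv x _ u => exact inv_mem (u trivial)
    | mul x y _ _ u v => exact mul_mem (u trivial) (v trivial)
  have b2 := basis i2 g2
  let S : Fin (k + 1) → L := Fin.snoc (fun i => algebraMap J L (u i) / z ^ c i) (z ^ r)
  have mem : ∀ i, IsAlgebraic (adjoin K (range S)) (S i) := fun i =>
    isAlgebraic_algebraMap (⟨_, subset_adjoin _ _ (mem_range_self i)⟩ : adjoin K (range S))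
  have az : IsAlgebraic (adjoin K (range S)) z :=
    IsAlgebraic.of_pow r0 (by simpa [S] using mem (Fin.last k))
  have al : Algebra.IsAlgebraic (Algebra.adjoin K (range S)) L :=
    isAlgebraic_adjoin_iff_top.1 ⟨fun a => by
      have : a ∈ adjoin K (range T) := g2 ▸ trivial
      induction this using adjoin_induction with
      | mem x hx =>
        obtain ⟨i | i, rfl⟩ := hx
        · exact az
        · have e : T (.inr i) = S i.castSucc * z ^ c i := by
            simp [S, T, zpow_ne_zero _ z0]
          rw [e]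
          refine (mem _).mul ?_
          rcases c i with n | n
          · simpa using az.pow n
          · simpa using (az.pow (n + 1)).inv
      | algebraMap x =>
        exact isAlgebraic_algebraMap (⟨_, _root_.algebraMap_mem _ x⟩ : adjoin K (range S))
      | add x y _ _ u v => exact u.add v
      | inv x _ u => exact u.inv
      | mul x y _ _ u v => exact u.mul v⟩
  have b3 : IsTranscendenceBasis K S :=
    Algebra.IsAlgebraic.isTranscendenceBasis_of_le_trdeg_of_finite K _
      (by rw [← b2.cardinalMk_eq_trdeg]; simp [add_comm])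
  obtain ⟨φ, hφ⟩ := lift x.ind x.gen b3.1
  have h1 : ∀ i, φ (t i.castSucc) = algebraMap J L (u i) / z ^ c i := fun i => by simp [hφ, S]
  have h2 : φ (t (Fin.last k)) = z ^ r := by simp [hφ, S]
  refine ⟨φ, h1, h2, fun ω hω => ?_⟩
  have ω0 : ω ≠ 0 := fun e => by simp [e, r0.ne'] at hω
  have ω1 : algebraMap ℂ L ω ≠ 0 := (_root_.map_ne_zero _).2 ω0
  obtain ⟨ρ, hρ⟩ := lift i2 g2 (Gav.ind_scale i2
    (c := Sum.elim (fun _ => algebraMap ℂ K ω) fun i => algebraMap ℂ K ω ^ c i) (by
      rintro (i | i)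
      · exact (_root_.map_ne_zero _).2 ω0
      · exact zpow_ne_zero _ ((_root_.map_ne_zero _).2 ω0)))
  have k1 : ρ z = algebraMap ℂ L ω * z := by
    simpa [T, ← IsScalarTower.algebraMap_apply, mul_comm] using hρ (.inl ())
  have k2 : ∀ i, ρ (algebraMap J L (u i)) = algebraMap J L (u i) * algebraMap ℂ L ω ^ c i :=
    fun i => by simpa [T, ← IsScalarTower.algebraMap_apply] using hρ (.inr i)
  refine ⟨ρ, k1, hom_ext x.gen (φ := ρ.comp φ) fun i => ?_⟩
  induction i using Fin.lastCases with
  | last => rw [AlgHom.comp_apply, h2, map_pow, k1, mul_pow, ← map_pow, hω, map_one, one_mul]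
  | cast i =>
    rw [AlgHom.comp_apply, h1, map_div₀, map_zpow₀, k1, k2, mul_zpow]
    have := zpow_ne_zero (c i) ω1
    have := zpow_ne_zero (c i) z0
    field_simp

end Vale.Agent.P283R.Ws.Em
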